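import Mathlib
import Vale.Agent.P042.General

namespace Vale.Agent.Results.P042.SquareDifferenceLower

open Polynomial

/-- `rmax h N` is the largest size of a set `A ⊆ {1, …, N}` such that every difference of two
elements of `A` that equals some value `h n` with `n ≥ 1` is zero. -/
noncomputable def rmax (h : Polynomial ℤ) (N : ℕ) : ℕ :=
  sSup {k : ℕ | ∃ A : Finset ℕ, A ⊆ Finset.Icc 1 N ∧ A.card = k ∧
    ∀ x ∈ A, ∀ y ∈ A, ∀ n : ℕ, 1 ≤ n → (x : ℤ) - y = h.eval (n : ℤ) → h.eval (n : ℤ) = 0}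

theorem le_rmax (h : Polynomial ℤ) (N : ℕ) (A : Finset ℕ) (hA : A ⊆ Finset.Icc 1 N)
    (hd : ∀ x ∈ A, ∀ y ∈ A, ∀ n : ℕ, 1 ≤ n → (x : ℤ) - y = h.eval (n : ℤ) →
      h.eval (n : ℤ) = 0) : A.card ≤ rmax h N := by
  apply le_csSup
  · refine ⟨N, ?_⟩
    rintro k ⟨B, hB, rfl, -⟩
    simpa using Finset.card_le_card hB
  · exact ⟨A, hA, rfl, hd⟩

/-- The square-difference problem has `r(N) ≫ N ^ 0.7565`, and the same holds for every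
polynomial `a * g ^ 2` with `a > 0`. -/
theorem result :
    (∃ c : ℝ, 0 < c ∧ ∀ N : ℕ, 1 ≤ N →
      c * (N : ℝ) ^ (0.7565 : ℝ) ≤ (rmax (X ^ 2) N : ℝ)) ∧
    ∀ (a : ℤ) (g : Polynomial ℤ), 0 < a → ∃ c : ℝ, 0 < c ∧ ∀ N : ℕ, 1 ≤ N →
      c * (N : ℝ) ^ (0.7565 : ℝ) ≤ (rmax (C a * g ^ 2) N : ℝ) := by
  have gen : ∀ (a : ℤ) (g : Polynomial ℤ), 0 < a → ∃ c : ℝ, 0 < c ∧ ∀ N : ℕ, 1 ≤ N →
      c * (N : ℝ) ^ (0.7565 : ℝ) ≤ (rmax (C a * g ^ 2) N : ℝ) := by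
    intro a g ha
    obtain ⟨c, hc, H⟩ := Vale.Agent.P042.main_general a ha g
    refine ⟨c, hc, fun N hN => ?_⟩
    obtain ⟨S, hS1, hS2, hS3⟩ := H N hN
    exact hS3.trans (by exact_mod_cast le_rmax _ N S hS1 hS2)
  refine ⟨?_, gen⟩
  have h1 := gen 1 X one_pos
  simpa using h1

end Vale.Agent.Results.P042.SquareDifferenceLower
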